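import Mathlib
import Vale.Agent.Borsuk.Geom3
import Vale.Agent.Borsuk.GraphB

namespace Vale.Agent.Results.P052.AllDimsFrom63

/-- `Y` is a union of `k` subsets, each of diameter strictly smaller than the diameter of `Y`. -/
def UnionOfSmaller {d : ℕ} (Y : Set (EuclideanSpace ℝ (Fin d))) (k : ℕ) : Prop :=
  ∃ F : Fin k → Set (EuclideanSpace ℝ (Fin d)),
    (⋃ i, F i) = Y ∧ ∀ i, Metric.diam (F i) < Metric.diam Y

/-- Borsuk's conjecture in dimension `d`: every bounded `Y ⊆ ℝ^d` of positive diameter is a union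
of `d + 1` subsets of diameter strictly smaller than the diameter of `Y`. -/
def BorsukHolds (d : ℕ) : Prop :=
  ∀ Y : Set (EuclideanSpace ℝ (Fin d)), Bornology.IsBounded Y → 0 < Metric.diam Y →
    UnionOfSmaller Y (d + 1)

open Vale.Agent.Borsuk in
theorem clique_step {α : Type} {d n : ℕ} (emb : Fin n → α) (y : α → EuclideanSpace ℝ (Fin d))
    (hn : ∀ s : Finset Nat, (∀ x ∈ s, x < n) →
      (∀ x ∈ s, ∀ y ∈ s, x ≠ y → a x y = true) → s.card ≠ 6)
    (hy : ∀ i j : Fin n, i ≠ j → a i j = false → dist (y (emb i)) (y (emb j)) = Real.sqrt 3072)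
    (F : Set (EuclideanSpace ℝ (Fin d))) (hb : Bornology.IsBounded F)
    (hF : Metric.diam F < Real.sqrt 3072)
    (s : Finset (Fin n)) (hs : ∀ i ∈ s, y (emb i) ∈ F) : s.card ≠ 6 := by
  intro h6
  have hadj : ∀ i ∈ s, ∀ j ∈ s, i ≠ j → a i j = true := by
    intro i hi j hj hij
    by_contra hne
    have hf : a i j = false := by simpa using hne
    have h1 := hy i j hij hf
    have h2 : dist (y (emb i)) (y (emb j)) ≤ Metric.diam F :=
      Metric.dist_le_diam_of_mem hb (hs i hi) (hs j hj)
    linarith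
  refine hn (s.map Fin.valEmbedding) ?_ ?_ ?_
  · intro x hx
    obtain ⟨i, _, rfl⟩ := Finset.mem_map.mp hx
    exact i.2
  · intro x hx x' hx' hne
    obtain ⟨i, hi, rfl⟩ := Finset.mem_map.mp hx
    obtain ⟨j, hj, rfl⟩ := Finset.mem_map.mp hx'
    apply hadj i hi j hj
    intro h
    exact hne (by rw [h])
  · rw [Finset.card_map, h6]

open Vale.Agent.Borsuk in
theorem case63 : ∃ Y : Set (EuclideanSpace ℝ (Fin 63)), Y.Finite ∧ 0 < Metric.diam Y ∧
    ∀ k : ℕ, UnionOfSmaller Y k → 65 ≤ k := by
  obtain ⟨y, hy⟩ := exists_points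
  have hfin : (Set.range y).Finite := Set.finite_range y
  have hpos : 0 < Metric.diam (Set.range y) := by
    have h01 : a ((0 : Fin 321) : ℕ) ((1 : Fin 321) : ℕ) = false := by decide +kernel
    have h1 := (hy 0 1 (by decide)).1 h01
    have h2 : dist (y 0) (y 1) ≤ Metric.diam (Set.range y) :=
      Metric.dist_le_diam_of_mem hfin.isBounded ⟨0, rfl⟩ ⟨1, rfl⟩
    have h3 : 0 < Real.sqrt 3072 := Real.sqrt_pos.mpr (by norm_num)
    linarith
  refine ⟨Set.range y, hfin, hpos, ?_⟩
  rintro k ⟨F, hF, hd⟩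
  by_contra hlt
  have hle : Metric.diam (Set.range y) ≤ Real.sqrt 3072 := by
    apply Metric.diam_le_of_forall_dist_le (Real.sqrt_nonneg _)
    rintro _ ⟨i, rfl⟩ _ ⟨j, rfl⟩
    by_cases hij : i = j
    · rw [hij, dist_self]
      exact Real.sqrt_nonneg _
    · cases h : a i j with
      | false => exact ((hy i j hij).1 h).le
      | true => exact ((hy i j hij).2 h).le
  have hmem : ∀ i : Fin 321, ∃ c : Fin k, y i ∈ F c := by
    intro i
    have : y i ∈ ⋃ c, F c := by
      rw [hF]
      exact ⟨i, rfl⟩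
    simpa using this
  choose c hc using hmem
  have hcard : Fintype.card (Fin k) * 5 < Fintype.card (Fin 321) := by
    simp only [Fintype.card_fin]
    omega
  obtain ⟨t, ht⟩ := Fintype.exists_lt_card_fiber_of_mul_lt_card (f := c) hcard
  obtain ⟨s, hs, hs6⟩ := Finset.exists_subset_card_eq (Nat.succ_le_of_lt ht)
  have hbd : Bornology.IsBounded (F t) := by
    apply hfin.isBounded.subset
    rw [← hF]
    exact Set.subset_iUnion F t
  refine clique_step (fun i => i) y no_clique (fun i j hij h => (hy i j hij).1 h) (F t) hbd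
    (lt_of_lt_of_le (hd t) hle) s ?_ hs6
  intro i hi
  have : c i = t := by simpa using hs hi
  exact this ▸ hc i

open Vale.Agent.Borsuk in
theorem case64 (m : ℕ) : ∃ Y : Set (EuclideanSpace ℝ (Fin (64 + m))), Y.Finite ∧
    0 < Metric.diam Y ∧ ∀ k : ℕ, UnionOfSmaller Y k → 64 + m + 2 ≤ k := by
  obtain ⟨y, hll, hlr, hrr⟩ := exists_points_high m
  have hfin : (Set.range y).Finite := Set.finite_range y
  have hD : 0 < Real.sqrt 3072 := Real.sqrt_pos.mpr (by norm_num)
  have hpos : 0 < Metric.diam (Set.range y) := by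
    have h01 : a ((0 : Fin 352) : ℕ) ((1 : Fin 352) : ℕ) = false := by decide +kernel
    have h1 := (hll 0 1 (by decide)).1 h01
    have h2 : dist (y (Sum.inl 0)) (y (Sum.inl 1)) ≤ Metric.diam (Set.range y) :=
      Metric.dist_le_diam_of_mem hfin.isBounded ⟨_, rfl⟩ ⟨_, rfl⟩
    linarith
  refine ⟨Set.range y, hfin, hpos, ?_⟩
  rintro k ⟨F, hF, hd⟩
  have hle : Metric.diam (Set.range y) ≤ Real.sqrt 3072 := by
    apply Metric.diam_le_of_forall_dist_le (Real.sqrt_nonneg _)
    rintro _ ⟨i, rfl⟩ _ ⟨j, rfl⟩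
    rcases i with i | i <;> rcases j with j | j
    · by_cases hij : i = j
      · rw [hij, dist_self]
        exact hD.le
      · cases h : a i j with
        | false => exact ((hll i j hij).1 h).le
        | true => exact ((hll i j hij).2 h).le
    · exact (hlr i j).le
    · rw [dist_comm]
      exact (hlr j i).le
    · by_cases hij : i = j
      · rw [hij, dist_self]
        exact hD.le
      · exact (hrr i j hij).le
  have hlt : ∀ t, Metric.diam (F t) < Real.sqrt 3072 := fun t => lt_of_lt_of_le (hd t) hle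
  have hbd : ∀ t, Bornology.IsBounded (F t) := by
    intro t
    apply hfin.isBounded.subset
    rw [← hF]
    exact Set.subset_iUnion F t
  have hmem : ∀ i, ∃ c : Fin k, y i ∈ F c := by
    intro i
    have : y i ∈ ⋃ c, F c := by
      rw [hF]
      exact ⟨i, rfl⟩
    simpa using this
  choose c hc using hmem
  have hsep : ∀ i j, dist (y i) (y j) = Real.sqrt 3072 → c i ≠ c j := by
    intro i j hij h
    have h2 : dist (y i) (y j) ≤ Metric.diam (F (c j)) :=
      Metric.dist_le_diam_of_mem (hbd _) (h ▸ hc i) (hc j)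
    have := hlt (c j)
    linarith
  have hinj : Function.Injective fun j : Fin m => c (Sum.inr j) := by
    intro i j hij
    by_contra hne
    exact hsep _ _ (hrr i j hne) hij
  let J : Finset (Fin k) := Finset.univ.image fun j : Fin m => c (Sum.inr j)
  have hJ : J.card = m := by
    rw [Finset.card_image_of_injective _ hinj, Finset.card_univ, Fintype.card_fin]
  have hmaps : ∀ i ∈ (Finset.univ : Finset (Fin 352)), c (Sum.inl i) ∈ Jᶜ := by
    intro i _
    rw [Finset.mem_compl]
    intro h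
    obtain ⟨j, _, hj⟩ := Finset.mem_image.mp h
    exact hsep _ _ (hlr i j) hj.symm
  by_contra hk
  have hJc : Jᶜ.card = k - m := by
    rw [Finset.card_compl, Fintype.card_fin, hJ]
  have hcard : Jᶜ.card * 5 < (Finset.univ : Finset (Fin 352)).card := by
    rw [hJc, Finset.card_univ, Fintype.card_fin]
    omega
  obtain ⟨t, _, ht⟩ := Finset.exists_lt_card_fiber_of_mul_lt_card_of_maps_to hmaps hcard
  obtain ⟨s, hs, hs6⟩ := Finset.exists_subset_card_eq (Nat.succ_le_of_lt ht)
  refine clique_step Sum.inl y no_clique352 (fun i j hij h => (hll i j hij).1 h) (F t) (hbd t)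
    (hlt t) s ?_ hs6
  intro i hi
  have : c (Sum.inl i) = t := by simpa using hs hi
  exact this ▸ hc (Sum.inl i)

/-- Borsuk's conjecture is false in every dimension `d ≥ 63`: some finite set in `ℝ^d` of positive
diameter is not a union of fewer than `d + 2` subsets of smaller diameter. -/
theorem result : ∀ d : ℕ, 63 ≤ d →
    (∃ Y : Set (EuclideanSpace ℝ (Fin d)), Y.Finite ∧ 0 < Metric.diam Y ∧
      ∀ k : ℕ, UnionOfSmaller Y k → d + 2 ≤ k) ∧ ¬ BorsukHolds d := by
  intro d hd
  have key : ∃ Y : Set (EuclideanSpace ℝ (Fin d)), Y.Finite ∧ 0 < Metric.diam Y ∧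
      ∀ k : ℕ, UnionOfSmaller Y k → d + 2 ≤ k := by
    rcases Nat.eq_or_lt_of_le hd with h | h
    · subst h
      exact case63
    · obtain ⟨m, rfl⟩ : ∃ m, d = 64 + m := ⟨d - 64, by omega⟩
      exact case64 m
  refine ⟨key, ?_⟩
  intro hB
  obtain ⟨Y, hfin, hpos, hk⟩ := key
  have := hk _ (hB Y hfin.isBounded hpos)
  omega

end Vale.Agent.Results.P052.AllDimsFrom63
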