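import Mathlib
import Vale.Agent.Borsuk.Geom2

namespace Vale.Agent.Results.P052.Dim63

/-- `Y` is a union of `k` subsets, each of diameter strictly smaller than the diameter of `Y`. -/
def UnionOfSmaller {d : ℕ} (Y : Set (EuclideanSpace ℝ (Fin d))) (k : ℕ) : Prop :=
  ∃ F : Fin k → Set (EuclideanSpace ℝ (Fin d)),
    (⋃ i, F i) = Y ∧ ∀ i, Metric.diam (F i) < Metric.diam Y

/-- Borsuk's conjecture in dimension `d`: every bounded `Y ⊆ ℝ^d` of positive diameter is a union
of `d + 1` subsets of diameter strictly smaller than the diameter of `Y`. -/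
def BorsukHolds (d : ℕ) : Prop :=
  ∀ Y : Set (EuclideanSpace ℝ (Fin d)), Bornology.IsBounded Y → 0 < Metric.diam Y →
    UnionOfSmaller Y (d + 1)

theorem not_union {k : ℕ} (hk : k ≤ 64) (y : Fin 321 → EuclideanSpace ℝ (Fin 63))
    (hy : ∀ i j : Fin 321, i ≠ j →
      (Vale.Agent.Borsuk.a i j = false → dist (y i) (y j) = Real.sqrt 3072) ∧
      (Vale.Agent.Borsuk.a i j = true → dist (y i) (y j) < Real.sqrt 3072)) :
    ¬ UnionOfSmaller (Set.range y) k := by
  rintro ⟨F, hF, hd⟩
  have hle : Metric.diam (Set.range y) ≤ Real.sqrt 3072 := by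
    apply Metric.diam_le_of_forall_dist_le (Real.sqrt_nonneg _)
    rintro _ ⟨i, rfl⟩ _ ⟨j, rfl⟩
    by_cases hij : i = j
    · rw [hij, dist_self]
      exact Real.sqrt_nonneg _
    · cases h : Vale.Agent.Borsuk.a i j with
      | false => exact ((hy i j hij).1 h).le
      | true => exact ((hy i j hij).2 h).le
  have hmem : ∀ i : Fin 321, ∃ c : Fin k, y i ∈ F c := by
    intro i
    have : y i ∈ ⋃ c, F c := by
      rw [hF]
      exact ⟨i, rfl⟩
    simpa using this
  choose c hc using hmem
  have hcard : Fintype.card (Fin k) * 5 < Fintype.card (Fin 321) := by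
    simp only [Fintype.card_fin]
    omega
  obtain ⟨t, ht⟩ := Fintype.exists_lt_card_fiber_of_mul_lt_card (f := c) hcard
  obtain ⟨s, hs, hs6⟩ := Finset.exists_subset_card_eq (Nat.succ_le_of_lt ht)
  have hbd : Bornology.IsBounded (F t) := by
    apply (Set.finite_range y).isBounded.subset
    rw [← hF]
    exact Set.subset_iUnion F t
  have hadj : ∀ i ∈ s, ∀ j ∈ s, i ≠ j → Vale.Agent.Borsuk.a i j = true := by
    intro i hi j hj hij
    by_contra hne
    have hf : Vale.Agent.Borsuk.a i j = false := by simpa using hne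
    have h1 := (hy i j hij).1 hf
    have hi' : c i = t := by simpa using hs hi
    have hj' : c j = t := by simpa using hs hj
    have h2 : dist (y i) (y j) ≤ Metric.diam (F t) :=
      Metric.dist_le_diam_of_mem hbd (hi' ▸ hc i) (hj' ▸ hc j)
    have h3 := hd t
    linarith
  refine Vale.Agent.Borsuk.no_clique (s.map Fin.valEmbedding) ?_ ?_ ?_
  · intro x hx
    obtain ⟨i, _, rfl⟩ := Finset.mem_map.mp hx
    exact i.2
  · intro x hx x' hx' hne
    obtain ⟨i, hi, rfl⟩ := Finset.mem_map.mp hx
    obtain ⟨j, hj, rfl⟩ := Finset.mem_map.mp hx'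
    apply hadj i hi j hj
    intro h
    exact hne (by rw [h])
  · rw [Finset.card_map, hs6]

/-- Borsuk's conjecture is false in dimension `63`: there is a finite set in `ℝ^63` of positive
diameter that is not a union of `64` (or fewer) subsets of smaller diameter. -/
theorem result :
    (∃ Y : Set (EuclideanSpace ℝ (Fin 63)), Y.Finite ∧ 0 < Metric.diam Y ∧
      ∀ k : ℕ, UnionOfSmaller Y k → 65 ≤ k) ∧ ¬ BorsukHolds 63 := by
  obtain ⟨y, hy⟩ := Vale.Agent.Borsuk.exists_points
  have hfin : (Set.range y).Finite := Set.finite_range y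
  have hpos : 0 < Metric.diam (Set.range y) := by
    have h01 : Vale.Agent.Borsuk.a ((0 : Fin 321) : ℕ) ((1 : Fin 321) : ℕ) = false := by
      decide +kernel
    have h1 := (hy 0 1 (by decide)).1 h01
    have h2 : dist (y 0) (y 1) ≤ Metric.diam (Set.range y) :=
      Metric.dist_le_diam_of_mem hfin.isBounded ⟨0, rfl⟩ ⟨1, rfl⟩
    have h3 : 0 < Real.sqrt 3072 := Real.sqrt_pos.mpr (by norm_num)
    linarith
  refine ⟨⟨Set.range y, hfin, hpos, ?_⟩, ?_⟩
  · intro k hk
    by_contra hlt
    exact not_union (by omega) y hy hk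
  · intro hB
    exact not_union le_rfl y hy (hB _ hfin.isBounded hpos)

end Vale.Agent.Results.P052.Dim63
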